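import Vale.Agent.P141.H470.KillN
import Vale.Agent.P141.H652.PlaneR

/-!
# P141, line (A), near term: the kill numbers, linear in the masses

Two families which agree off the squares `Q` of scale `K` are compared at the middle scale `K + r`
and any outer scale.  The change is at most `cap * (θ * mass on the squares Q + θ⁻¹ * mass of the
rows of these squares over the middle cell)`; nothing but masses enters (homogeneous in the mass).

* `mk` : mass on the squares `Q`; `mr` : mass of the rows of the squares over the middle cells;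
* `EW_mass`, `MW_mass` : changes of the own energy and of the plane functional;
* `EW_low`, `MR_low` : middle scale below the scale of the squares.
-/

namespace Vale.Agent.P141.H706

open Finset Matrix Vale.Agent.P141.PL Vale.Agent.P141.H103
open Vale.Agent.P075 (Ix val)
open Vale.Agent.P141.H470 (Qf Cp kp kp_nonneg AgrQ tr_un QK_one sum_cut mem_sub Qf_diff)

noncomputable section

open scoped Classical

variable {κ κ' : Type*} [Fintype κ] [Fintype κ']

/-- both squares at one point -/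
def wB (b' b : ℤ → ℤ → κ → ℝ) (x y : ℤ) : ℝ := ∑ i, (b' x y i ^ 2 + b x y i ^ 2)

theorem wB_nonneg (b' b : ℤ → ℤ → κ → ℝ) (x y : ℤ) : 0 ≤ wB b' b x y :=
  sum_nonneg fun _ _ => by positivity

/-- mass on the affected squares, one row over the middle cell `m` of scale `K + r` -/
def dM (K r : ℕ) (Q : ℤ → ℤ → Prop) (b' b : ℤ → ℤ → κ → ℝ) (x m : ℤ) : ℝ :=
  ∑ m' ∈ iv r m, if Q (ix K x) m' then ∑ y ∈ iv K m', wB b' b x y else 0

/-- mass of an affected row over the middle cell -/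
def rS (K r : ℕ) (Q : ℤ → ℤ → Prop) (b' b : ℤ → ℤ → κ → ℝ) (x m : ℤ) : ℝ :=
  kp K r Q x m * ∑ y ∈ iv (K + r) m, wB b' b x y

theorem dM_nonneg (K r : ℕ) (Q : ℤ → ℤ → Prop) (b' b : ℤ → ℤ → κ → ℝ) (x m : ℤ) :
    0 ≤ dM K r Q b' b x m :=
  sum_nonneg fun _ _ => by
    split_ifs
    · exact sum_nonneg fun _ _ => wB_nonneg ..
    · exact le_rfl

theorem rS_nonneg (K r : ℕ) (Q : ℤ → ℤ → Prop) (b' b : ℤ → ℤ → κ → ℝ) (x m : ℤ) :
    0 ≤ rS K r Q b' b x m :=
  mul_nonneg (kp_nonneg ..) (sum_nonneg fun _ _ => wB_nonneg ..)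

/-- mass on the squares `Q` -/
def mk (N : ℕ) (R S : ℤ) (K : ℕ) (Q : ℤ → ℤ → Prop) (b' b : ℤ → ℤ → κ → ℝ) : ℝ :=
  ∑ m' ∈ iv (N - K) S, ∑ x ∈ iv N R, if Q (ix K x) m' then ∑ y ∈ iv K m', wB b' b x y else 0

/-- mass of the rows of the squares `Q` over the middle cells of scale `K + r` -/
def mr (N : ℕ) (R S : ℤ) (K r : ℕ) (Q : ℤ → ℤ → Prop) (b' b : ℤ → ℤ → κ → ℝ) : ℝ :=
  ∑ m' ∈ iv (N - K) S, ∑ x ∈ iv N R,
    if Q (ix K x) m' then ∑ y ∈ iv (K + r) (ix r m'), wB b' b x y else 0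

theorem mk_nonneg (N : ℕ) (R S : ℤ) (K : ℕ) (Q : ℤ → ℤ → Prop) (b' b : ℤ → ℤ → κ → ℝ) :
    0 ≤ mk N R S K Q b' b :=
  sum_nonneg fun _ _ => sum_nonneg fun _ _ => by
    split_ifs
    · exact sum_nonneg fun _ _ => wB_nonneg ..
    · exact le_rfl

theorem mr_nonneg (N : ℕ) (R S : ℤ) (K r : ℕ) (Q : ℤ → ℤ → Prop) (b' b : ℤ → ℤ → κ → ℝ) :
    0 ≤ mr N R S K r Q b' b :=
  sum_nonneg fun _ _ => sum_nonneg fun _ _ => by
    split_ifs
    · exact sum_nonneg fun _ _ => wB_nonneg ..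
    · exact le_rfl

variable {N K r : ℕ} {R S T : ℤ} {Q : ℤ → ℤ → Prop} {b b' : ℤ → ℤ → κ → ℝ}

theorem sum_dM (h : K + r ≤ N) :
    ∑ m ∈ iv (N - (K + r)) S, ∑ x ∈ iv N R, dM K r Q b' b x m = mk N R S K Q b' b := by
  have e2 : N - K - r = N - (K + r) := by omega
  have h2 := H804.iv_sum (N := N - K) (k := r) (by omega) S
    fun m' => ∑ x ∈ iv N R, if Q (ix K x) m' then ∑ y ∈ iv K m', wB b' b x y else 0
  rw [e2] at h2
  unfold mk dM
  rw [← h2]
  exact sum_congr rfl fun m _ => sum_comm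

theorem sum_rS (h : K + r ≤ N) :
    ∑ m ∈ iv (N - (K + r)) S, ∑ x ∈ iv N R, rS K r Q b' b x m = mr N R S K r Q b' b := by
  have e2 : N - K - r = N - (K + r) := by omega
  have h2 := H804.iv_sum (N := N - K) (k := r) (by omega) S
    fun m' => ∑ x ∈ iv N R, if Q (ix K x) m' then ∑ y ∈ iv (K + r) (ix r m'), wB b' b x y else 0
  rw [e2] at h2
  unfold mr
  rw [← h2]
  refine sum_congr rfl fun m _ => ?_
  rw [sum_comm]
  refine sum_congr rfl fun x _ => ?_
  unfold rS kp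
  rw [sum_mul]
  refine sum_congr rfl fun m' hm' => ?_
  rw [mem_iv.1 hm']
  split_ifs
  · rw [one_mul]
  · rw [zero_mul]

/-- the mass of the difference -/
theorem diff_le (h : K + r ≤ N) (hA : AgrQ N R S K Q b' b) {x m : ℤ} (hx : x ∈ iv N R)
    (hm : m ∈ iv (N - (K + r)) S) :
    ∑ i, ∑ y ∈ iv (K + r) m, (b' x y i - b x y i) ^ 2 ≤ 2 * dM K r Q b' b x m := by
  rw [sum_comm, sum_cut, dM, mul_sum]
  refine sum_le_sum fun m' hm' => ?_
  have hm2 := mem_sub h hm hm'
  split_ifs with hq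
  · rw [mul_sum]
    refine sum_le_sum fun y _ => ?_
    rw [wB, mul_sum]
    refine sum_le_sum fun i _ => ?_
    nlinarith [sq_nonneg (b' x y i + b x y i)]
  · have hn : ix K x ∈ iv (N - K) R := by
      rw [mem_iv] at hx ⊢
      rw [ix_ix, ← hx]
      congr 1
      omega
    have h4 : ∀ y ∈ iv K m', ∑ i, (b' x y i - b x y i) ^ 2 = 0 := by
      intro y hy
      rw [hA _ hn m' hm2 hq x (mem_iv.2 rfl) y hy]
      simp
    rw [sum_congr rfl h4, sum_const_zero, mul_zero]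

/-- **one row** -/
theorem row_mass {C θ : ℝ} {a l' : ℕ} {c : ℤ → ℤ → κ' → ℝ} {n' m : ℤ} (hC0 : 0 ≤ C) (hθ : 0 < θ)
    (h : K + r ≤ N) (hl : l' = K + r) (hA : AgrQ N R S K Q b' b) {x : ℤ} (hx : x ∈ iv N R)
    (hm : m ∈ iv (N - (K + r)) S) (hC : Cp C a l' c n' m) :
    ∑ i, Qf a l' c n' m (fun y => b' x y i) - ∑ i, Qf a l' c n' m (fun y => b x y i) ≤
      C * 2 ^ a * 2 ^ l' * (θ * dM K r Q b' b x m + θ⁻¹ * rS K r Q b' b x m) := by
  subst hl
  have hd0 := dM_nonneg K r Q b' b x m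
  have hr0 := rS_nonneg K r Q b' b x m
  by_cases hq : ∃ m' ∈ iv r m, Q (ix K x) m'
  · have h1 := H470.row_diff (C := C) (a := a) (l := K + r) (c := c) (n := n') (m := m) hC0 hC
      (fun y i => b x y i) (fun y i => b' x y i) (D := 2 * dM K r Q b' b x m)
      (E := 2 * rS K r Q b' b x m) (diff_le h hA hx hm) (by
        obtain ⟨m0, hm0, hq0⟩ := hq
        have hone : (1 : ℝ) ≤ kp K r Q x m := by
          have h := single_le_sum (f := fun m' => if Q (ix K x) m' then (1 : ℝ) else 0)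
            (fun i _ => by split_ifs <;> norm_num) hm0
          simp only [if_pos hq0] at h
          exact h
        have h2 : ∑ i, ∑ y ∈ iv (K + r) m, (b' x y i + b x y i) ^ 2 ≤
            2 * ∑ y ∈ iv (K + r) m, wB b' b x y := by
          rw [sum_comm, mul_sum]
          refine sum_le_sum fun y _ => ?_
          rw [wB, mul_sum]
          refine sum_le_sum fun i _ => ?_
          nlinarith [sq_nonneg (b' x y i - b x y i)]
        have h3 : 0 ≤ ∑ y ∈ iv (K + r) m, wB b' b x y := sum_nonneg fun _ _ => wB_nonneg ..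
        have h4 := mul_le_mul_of_nonneg_right hone h3
        unfold rS
        linarith)
    refine h1.trans (mul_le_mul_of_nonneg_left ?_ (by positivity))
    rw [← Real.sqrt_mul (by positivity)]
    refine Real.sqrt_le_iff.2 ⟨by positivity, ?_⟩
    have h5 : (θ * dM K r Q b' b x m) * (θ⁻¹ * rS K r Q b' b x m) =
        dM K r Q b' b x m * rS K r Q b' b x m := by
      field_simp
    nlinarith [sq_nonneg (θ * dM K r Q b' b x m - θ⁻¹ * rS K r Q b' b x m)]
  · have hz : ∀ y ∈ iv (K + r) m, b' x y = b x y := by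
      intro y hy
      have hn : ix K x ∈ iv (N - K) R := by
        rw [mem_iv] at hx ⊢
        rw [ix_ix, ← hx]
        congr 1
        omega
      have hy2 : ix K y ∈ iv r m := by
        rw [mem_iv] at hy ⊢
        rw [ix_ix, hy]
      have hq2 : ¬ Q (ix K x) (ix K y) := fun h => hq ⟨_, hy2, h⟩
      exact hA _ hn _ (mem_sub h hm hy2) hq2 x (mem_iv.2 rfl) y (mem_iv.2 rfl)
    have e : ∀ i, Qf a (K + r) c n' m (fun y => b' x y i) =
        Qf a (K + r) c n' m (fun y => b x y i) := by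
      intro i
      unfold Qf
      refine sum_congr rfl fun x' _ => sum_congr rfl fun j _ => ?_
      congr 1
      exact sum_congr rfl fun y hy => by simp only [hz y hy]
    rw [sum_congr rfl fun i _ => e i, sub_self]
    positivity

/-- one side of a node -/
theorem side_mass [DecidableEq κ] [DecidableEq κ'] {C θ : ℝ} {a a' : ℕ} {c : ℤ → ℤ → κ' → ℝ}
    {n n' m : ℤ} (hC0 : 0 ≤ C) (hθ : 0 < θ) (h : K + r ≤ N) (ha : a ≤ N)
    (hA : AgrQ N R S K Q b' b) (hn : n ∈ iv (N - a) R) (hm : m ∈ iv (N - (K + r)) S)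
    (hC : Cp C a' (K + r) c n' m) :
    (QW a (K + r) b' (fun _ => 1) n m * QW a' (K + r) c (fun _ => 1) n' m).trace ≤
      (QW a (K + r) b (fun _ => 1) n m * QW a' (K + r) c (fun _ => 1) n' m).trace +
        C * (((2 : ℝ) ^ a * 2 ^ (K + r))⁻¹ *
          ∑ x ∈ iv a n, (θ * dM K r Q b' b x m + θ⁻¹ * rS K r Q b' b x m)) := by
  rw [tr_un, tr_un]
  have hx : ∀ x ∈ iv a n, x ∈ iv N R := by
    intro x hx
    rw [mem_iv] at hn hx ⊢
    rw [← hn, ← hx, ix_ix]
    congr 1
    omega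
  have h1 : ∑ x ∈ iv a n, ∑ i, Qf a' (K + r) c n' m (fun y => b' x y i) ≤
      ∑ x ∈ iv a n, ∑ i, Qf a' (K + r) c n' m (fun y => b x y i) +
        C * 2 ^ a' * 2 ^ (K + r) *
          ∑ x ∈ iv a n, (θ * dM K r Q b' b x m + θ⁻¹ * rS K r Q b' b x m) := by
    rw [mul_sum, ← sum_add_distrib]
    refine sum_le_sum fun x hx' => ?_
    have := row_mass hC0 hθ h rfl hA (hx x hx') hm hC
    linarith
  have h2 : (0 : ℝ) ≤ ((2 : ℝ) ^ a * 2 ^ a')⁻¹ * ((2 : ℝ) ^ (K + r))⁻¹ ^ 2 := by positivity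
  have h3 := mul_le_mul_of_nonneg_left h1 h2
  rw [mul_add, mul_assoc, mul_assoc] at h3
  refine h3.trans (le_of_eq ?_)
  congr 1
  have e1 : (2 : ℝ) ^ a ≠ 0 := by positivity
  have e2 : (2 : ℝ) ^ a' ≠ 0 := by positivity
  have e3 : (2 : ℝ) ^ (K + r) ≠ 0 := by positivity
  field_simp

/-- sums over all nodes -/
theorem sum_all {a : ℕ} (h : K + r ≤ N) (ha : a ≤ N) (θ : ℝ) :
    ∑ m ∈ iv (N - (K + r)) S, ∑ n ∈ iv (N - a) R,
      ∑ x ∈ iv a n, (θ * dM K r Q b' b x m + θ⁻¹ * rS K r Q b' b x m) =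
      θ * mk N R S K Q b' b + θ⁻¹ * mr N R S K r Q b' b := by
  rw [← sum_dM h, ← sum_rS h, mul_sum, mul_sum, ← sum_add_distrib]
  refine sum_congr rfl fun m _ => ?_
  rw [H804.iv_sum ha R fun x => θ * dM K r Q b' b x m + θ⁻¹ * rS K r Q b' b x m,
    sum_add_distrib, mul_sum, mul_sum]

/-- **Change of the own energy**, middle scale `K + r`, outer scale `a`. -/
theorem EW_mass [DecidableEq κ] {C θ : ℝ} {a : ℕ} (hC0 : 0 ≤ C) (hθ : 0 < θ) (h : K + r ≤ N)
    (ha : a ≤ N) (hA : AgrQ N R S K Q b' b)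
    (hC' : ∀ n ∈ iv (N - a) R, ∀ m ∈ iv (N - (K + r)) S, Cp C a (K + r) b' n m) :
    EW N R S (K + r) (QK b' (fun _ _ _ => 1) (K + r)) a ≤
      EW N R S (K + r) (QK b (fun _ _ _ => 1) (K + r)) a +
        2 * C * (θ * mk N R S K Q b' b + θ⁻¹ * mr N R S K r Q b' b) := by
  unfold EW
  simp only [QK_one]
  have hp : (0 : ℝ) < 2 ^ a * 2 ^ (K + r) := by positivity
  have h1 : ∑ m ∈ iv (N - (K + r)) S, ∑ n ∈ iv (N - a) R,
      (QW a (K + r) b' (fun _ => 1) n m * QW a (K + r) b' (fun _ => 1) n m).trace ≤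
      ∑ m ∈ iv (N - (K + r)) S, ∑ n ∈ iv (N - a) R,
        (QW a (K + r) b (fun _ => 1) n m * QW a (K + r) b (fun _ => 1) n m).trace +
      2 * C * (((2 : ℝ) ^ a * 2 ^ (K + r))⁻¹ *
        (θ * mk N R S K Q b' b + θ⁻¹ * mr N R S K r Q b' b)) := by
    rw [← sum_all (R := R) (S := S) h ha θ, mul_sum, mul_sum, ← sum_add_distrib]
    refine sum_le_sum fun m hm => ?_
    rw [mul_sum, mul_sum, ← sum_add_distrib]
    refine sum_le_sum fun n hn => ?_
    have h2 := side_mass hC0 hθ h ha hA hn hm (hC' n hn m hm)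
    have hP : (QW a (K + r) b (fun _ => (1 : Matrix κ κ ℝ)) n m)ᵀ =
        QW a (K + r) b (fun _ => 1) n m := QW_symm (fun _ => transpose_one) n m
    have hP' : (QW a (K + r) b' (fun _ => (1 : Matrix κ κ ℝ)) n m)ᵀ =
        QW a (K + r) b' (fun _ => 1) n m := QW_symm (fun _ => transpose_one) n m
    have h3 := P075.trace_sq_nonneg (B := QW a (K + r) b' (fun _ => 1) n m -
      QW a (K + r) b (fun _ => 1) n m) (by rw [transpose_sub, hP, hP'])
    rw [Matrix.sub_mul, Matrix.mul_sub, Matrix.mul_sub, trace_sub, trace_sub, trace_sub,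
      trace_mul_comm (QW a (K + r) b' (fun _ => 1) n m) (QW a (K + r) b (fun _ => 1) n m)] at h3
    linarith
  refine (mul_le_mul_of_nonneg_left h1 hp.le).trans (le_of_eq ?_)
  field_simp

/-- the same for the scalar family -/
theorem EW_massA {C θ : ℝ} {a : ℕ} {A' A : ℤ → ℤ → ℝ} (hC0 : 0 ≤ C) (hθ : 0 < θ)
    (h : K + r ≤ N) (ha : a ≤ N) (hA : AgrQ N R S K Q (un A') (un A))
    (hC' : ∀ n ∈ iv (N - a) R, ∀ m ∈ iv (N - (K + r)) S, Cp C a (K + r) (un A') n m) :
    EW N R S (K + r) (PA A' (K + r)) a ≤ EW N R S (K + r) (PA A (K + r)) a +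
        2 * C * (θ * mk N R S K Q (un A') (un A) + θ⁻¹ * mr N R S K r Q (un A') (un A)) := by
  rw [PA_eq, PA_eq]
  exact EW_mass hC0 hθ h ha hA hC'

/-- **Change of the plane functional**, scale `K + r`. -/
theorem MW_mass [DecidableEq κ] [DecidableEq κ'] {C C' θ : ℝ} {c c' : ℤ → ℤ → κ' → ℝ}
    {Q' : ℤ → ℤ → Prop} (hC0 : 0 ≤ C) (hC0' : 0 ≤ C') (hθ : 0 < θ)
    (h : K + r ≤ N) (d : ℤ) (hA : AgrQ N R S K Q b' b) (hA' : AgrQ N T S K Q' c' c)
    (hC : ∀ n ∈ iv (N - (K + r)) R, ∀ m ∈ iv (N - (K + r)) S, Cp C (K + r) (K + r) b n m)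
    (hC' : ∀ n ∈ iv (N - (K + r)) T, ∀ m ∈ iv (N - (K + r)) S, Cp C' (K + r) (K + r) c' n m) :
    MW N R S T (K + r) d (QK b' (fun _ _ _ => 1) (K + r) (K + r))
        (QK c' (fun _ _ _ => 1) (K + r) (K + r)) ≤
      MW N R S T (K + r) d (QK b (fun _ _ _ => 1) (K + r) (K + r))
        (QK c (fun _ _ _ => 1) (K + r) (K + r)) +
      (C' * (θ * mk N R S K Q b' b + θ⁻¹ * mr N R S K r Q b' b) +
        C * (θ * mk N T S K Q' c' c + θ⁻¹ * mr N T S K r Q' c' c)) := by
  unfold MW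
  simp only [QK_one]
  have hp : (0 : ℝ) < 2 ^ (K + r) * 2 ^ (K + r) := by positivity
  set X : ℤ → ℤ → ℝ := fun n m => ∑ x ∈ iv (K + r) n,
    (θ * dM K r Q b' b x m + θ⁻¹ * rS K r Q b' b x m) with hX
  set X' : ℤ → ℤ → ℝ := fun n m => ∑ x ∈ iv (K + r) n,
    (θ * dM K r Q' c' c x m + θ⁻¹ * rS K r Q' c' c x m) with hX'
  have X0 : ∀ n m, 0 ≤ X n m := fun n m => sum_nonneg fun x _ => by
    have := dM_nonneg K r Q b' b x m
    have := rS_nonneg K r Q b' b x m
    positivity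
  have X0' : ∀ n m, 0 ≤ X' n m := fun n m => sum_nonneg fun x _ => by
    have := dM_nonneg K r Q' c' c x m
    have := rS_nonneg K r Q' c' c x m
    positivity
  set q : ℝ := ((2 : ℝ) ^ (K + r) * 2 ^ (K + r))⁻¹ with hq
  have hq0 : 0 < q := by positivity
  have h1 : ∑ m ∈ iv (N - (K + r)) S, ∑ n ∈ iv (N - (K + r)) R,
      (if d - m - n ∈ iv (N - (K + r)) T then (QW (K + r) (K + r) b' (fun _ => 1) n m *
        QW (K + r) (K + r) c' (fun _ => 1) (d - m - n) m).trace else 0) ≤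
      ∑ m ∈ iv (N - (K + r)) S, ∑ n ∈ iv (N - (K + r)) R,
        (if d - m - n ∈ iv (N - (K + r)) T then (QW (K + r) (K + r) b (fun _ => 1) n m *
          QW (K + r) (K + r) c (fun _ => 1) (d - m - n) m).trace else 0) +
      (C' * q * ∑ m ∈ iv (N - (K + r)) S, ∑ n ∈ iv (N - (K + r)) R, X n m +
        C * q * ∑ m ∈ iv (N - (K + r)) S, ∑ n ∈ iv (N - (K + r)) T, X' n m) := by
    rw [mul_sum, mul_sum, ← sum_add_distrib, ← sum_add_distrib]
    refine sum_le_sum fun m hm => ?_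
    have key := H588.sum_refl_le (N - (K + r)) R T (d - m) (fun n => X' n m) fun n => X0' n m
    have key2 := mul_le_mul_of_nonneg_left key (show 0 ≤ C * q by positivity)
    have h2 : ∑ n ∈ iv (N - (K + r)) R,
        (if d - m - n ∈ iv (N - (K + r)) T then (QW (K + r) (K + r) b' (fun _ => 1) n m *
          QW (K + r) (K + r) c' (fun _ => 1) (d - m - n) m).trace else 0) ≤
        ∑ n ∈ iv (N - (K + r)) R,
          (if d - m - n ∈ iv (N - (K + r)) T then (QW (K + r) (K + r) b (fun _ => 1) n m *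
            QW (K + r) (K + r) c (fun _ => 1) (d - m - n) m).trace else 0) +
        (C' * q * ∑ n ∈ iv (N - (K + r)) R, X n m +
          C * q * ∑ n ∈ iv (N - (K + r)) R,
            (if d - m - n ∈ iv (N - (K + r)) T then X' (d - m - n) m else 0)) := by
      rw [mul_sum, mul_sum, ← sum_add_distrib, ← sum_add_distrib]
      refine sum_le_sum fun n hn => ?_
      by_cases ht : d - m - n ∈ iv (N - (K + r)) T
      · rw [if_pos ht, if_pos ht, if_pos ht]
        have s1 := side_mass (b' := b') (b := b) hC0' hθ h h hA hn hm (hC' _ ht m hm)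
        have s2 := side_mass (b' := c') (b := c) hC0 hθ h h hA' ht hm (hC n hn m hm)
        have c1 := trace_mul_comm (QW (K + r) (K + r) b (fun _ => 1) n m)
          (QW (K + r) (K + r) c' (fun _ => 1) (d - m - n) m)
        have c2 := trace_mul_comm (QW (K + r) (K + r) b (fun _ => 1) n m)
          (QW (K + r) (K + r) c (fun _ => 1) (d - m - n) m)
        rw [← hq] at s1 s2
        have t1 : C' * (q * ∑ x ∈ iv (K + r) n, (θ * dM K r Q b' b x m +
            θ⁻¹ * rS K r Q b' b x m)) = C' * q * X n m := by rw [hX]; ring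
        have t2 : C * (q * ∑ x ∈ iv (K + r) (d - m - n), (θ * dM K r Q' c' c x m +
            θ⁻¹ * rS K r Q' c' c x m)) = C * q * X' (d - m - n) m := by rw [hX']; ring
        linarith
      · rw [if_neg ht, if_neg ht, if_neg ht, mul_zero, add_zero, zero_add]
        exact mul_nonneg (by positivity) (X0 n m)
    linarith
  have s1 := sum_all (N := N) (R := R) (S := S) (Q := Q) (b' := b') (b := b) h h θ
  have s2 := sum_all (N := N) (R := T) (S := S) (Q := Q') (b' := c') (b := c) h h θ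
  rw [hX, hX'] at h1
  simp only at h1
  rw [s1, s2] at h1
  have e0 : (4 : ℝ) ^ (K + r) = 2 ^ (K + r) * 2 ^ (K + r) := by rw [← mul_pow]; norm_num
  rw [e0]
  refine (mul_le_mul_of_nonneg_left h1 hp.le).trans (le_of_eq ?_)
  rw [hq]
  field_simp

/-! ### Middle scale below the scale of the squares -/

/-- mass on the affected squares of scale `k + r`, one row over the middle cell `m` of scale `k` -/
def lM (k r : ℕ) (Q : ℤ → ℤ → Prop) (b' b : ℤ → ℤ → κ → ℝ) (x m : ℤ) : ℝ :=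
  if Q (ix (k + r) x) (ix r m) then ∑ y ∈ iv k m, wB b' b x y else 0

theorem lM_nonneg (k r : ℕ) (Q : ℤ → ℤ → Prop) (b' b : ℤ → ℤ → κ → ℝ) (x m : ℤ) :
    0 ≤ lM k r Q b' b x m := by
  unfold lM
  split_ifs
  · exact sum_nonneg fun _ _ => wB_nonneg ..
  · exact le_rfl

theorem sum_lM {k : ℕ} (h : k + r ≤ N) :
    ∑ m ∈ iv (N - k) S, ∑ x ∈ iv N R, lM k r Q b' b x m = mk N R S (k + r) Q b' b := by
  have e2 : N - k - r = N - (k + r) := by omega
  have h2 := H804.iv_sum (N := N - k) (k := r) (by omega) S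
    fun m => ∑ x ∈ iv N R, lM k r Q b' b x m
  rw [e2] at h2
  rw [← h2]
  unfold mk
  refine sum_congr rfl fun M _ => ?_
  rw [sum_comm]
  refine sum_congr rfl fun x _ => ?_
  have h3 : ∀ m ∈ iv r M, lM k r Q b' b x m =
      if Q (ix (k + r) x) M then ∑ y ∈ iv k m, wB b' b x y else 0 := by
    intro m hm
    unfold lM
    rw [mem_iv.1 hm]
  rw [sum_congr rfl h3]
  split_ifs
  · have h4 := sum_cut k r M fun y => wB b' b x y
    rw [h4]
  · exact sum_const_zero

/-- one side of a node, middle scale `k`, squares of scale `k + r` -/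
theorem side_low [DecidableEq κ] [DecidableEq κ'] {C : ℝ} {k a a' : ℕ} {c : ℤ → ℤ → κ' → ℝ}
    {n n' m : ℤ} (hC0 : 0 ≤ C) (h : k + r ≤ N) (ha : a ≤ N)
    (hA : AgrQ N R S (k + r) Q b' b) (hn : n ∈ iv (N - a) R) (hm : m ∈ iv (N - k) S)
    (hC : Cp C a' k c n' m) :
    (QW a k b' (fun _ => 1) n m * QW a' k c (fun _ => 1) n' m).trace ≤
      (QW a k b (fun _ => 1) n m * QW a' k c (fun _ => 1) n' m).trace +
        C * (((2 : ℝ) ^ a * 2 ^ k)⁻¹ * ∑ x ∈ iv a n, lM k r Q b' b x m) := by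
  rw [tr_un, tr_un]
  have hx : ∀ x ∈ iv a n, x ∈ iv N R := by
    intro x hx
    rw [mem_iv] at hn hx ⊢
    rw [← hn, ← hx, ix_ix]
    congr 1
    omega
  have row : ∀ x ∈ iv a n, ∑ i, Qf a' k c n' m (fun y => b' x y i) ≤
      ∑ i, Qf a' k c n' m (fun y => b x y i) + C * 2 ^ a' * 2 ^ k * lM k r Q b' b x m := by
    intro x hx'
    have hxN := hx x hx'
    unfold lM
    split_ifs with hq
    · have h0 : 0 ≤ ∑ i, Qf a' k c n' m (fun y => b x y i) :=
        sum_nonneg fun _ _ => H470.Qf_nonneg ..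
      have h1 : ∑ i, Qf a' k c n' m (fun y => b' x y i) ≤
          ∑ i, C * 2 ^ a' * 2 ^ k * ∑ y ∈ iv k m, b' x y i ^ 2 :=
        sum_le_sum fun i _ => hC fun y => b' x y i
      rw [← mul_sum, sum_comm] at h1
      have h2 : ∑ y ∈ iv k m, ∑ i, b' x y i ^ 2 ≤ ∑ y ∈ iv k m, wB b' b x y :=
        sum_le_sum fun y _ => sum_le_sum fun i _ => by nlinarith [sq_nonneg (b x y i)]
      have h3 := mul_le_mul_of_nonneg_left h2 (show 0 ≤ C * 2 ^ a' * 2 ^ k by positivity)
      linarith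
    · rw [mul_zero, add_zero]
      refine le_of_eq (sum_congr rfl fun i _ => ?_)
      have hz : ∀ y ∈ iv k m, b' x y = b x y := by
        intro y hy
        have hn2 : ix (k + r) x ∈ iv (N - (k + r)) R := by
          rw [mem_iv] at hxN ⊢
          rw [ix_ix, ← hxN]
          congr 1
          omega
        have hm2 : ix r m ∈ iv (N - (k + r)) S := by
          rw [mem_iv] at hm ⊢
          rw [ix_ix, ← hm]
          congr 1
          omega
        refine hA _ hn2 _ hm2 hq x (mem_iv.2 rfl) y ?_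
        rw [mem_iv] at hy ⊢
        rw [← hy, ix_ix]
      unfold Qf
      refine sum_congr rfl fun x' _ => sum_congr rfl fun j _ => ?_
      congr 1
      exact sum_congr rfl fun y hy => by simp only [hz y hy]
  have h1 := sum_le_sum row
  rw [sum_add_distrib, ← mul_sum] at h1
  have h2 : (0 : ℝ) ≤ ((2 : ℝ) ^ a * 2 ^ a')⁻¹ * ((2 : ℝ) ^ k)⁻¹ ^ 2 := by positivity
  have h3 := mul_le_mul_of_nonneg_left h1 h2
  rw [mul_add, mul_assoc, mul_assoc] at h3
  refine h3.trans (le_of_eq ?_)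
  congr 1
  have e1 : (2 : ℝ) ^ a ≠ 0 := by positivity
  have e2 : (2 : ℝ) ^ a' ≠ 0 := by positivity
  have e3 : (2 : ℝ) ^ k ≠ 0 := by positivity
  field_simp

/-- **Change of the own energy**, middle scale `k`, squares of scale `k + r`, outer scale `a`. -/
theorem EW_low [DecidableEq κ] {C : ℝ} {k a : ℕ} (hC0 : 0 ≤ C) (h : k + r ≤ N)
    (ha : a ≤ N) (hA : AgrQ N R S (k + r) Q b' b)
    (hC' : ∀ n ∈ iv (N - a) R, ∀ m ∈ iv (N - k) S, Cp C a k b' n m) :
    EW N R S k (QK b' (fun _ _ _ => 1) k) a ≤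
      EW N R S k (QK b (fun _ _ _ => 1) k) a + 2 * C * mk N R S (k + r) Q b' b := by
  unfold EW
  simp only [QK_one]
  have hp : (0 : ℝ) < 2 ^ a * 2 ^ k := by positivity
  have e : ∑ m ∈ iv (N - k) S, ∑ n ∈ iv (N - a) R, ∑ x ∈ iv a n, lM k r Q b' b x m =
      mk N R S (k + r) Q b' b := by
    rw [← sum_lM h]
    exact sum_congr rfl fun m _ => H804.iv_sum ha R fun x => lM k r Q b' b x m
  have h1 : ∑ m ∈ iv (N - k) S, ∑ n ∈ iv (N - a) R,
      (QW a k b' (fun _ => 1) n m * QW a k b' (fun _ => 1) n m).trace ≤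
      ∑ m ∈ iv (N - k) S, ∑ n ∈ iv (N - a) R,
        (QW a k b (fun _ => 1) n m * QW a k b (fun _ => 1) n m).trace +
      2 * C * (((2 : ℝ) ^ a * 2 ^ k)⁻¹ * mk N R S (k + r) Q b' b) := by
    rw [← e, mul_sum, mul_sum, ← sum_add_distrib]
    refine sum_le_sum fun m hm => ?_
    rw [mul_sum, mul_sum, ← sum_add_distrib]
    refine sum_le_sum fun n hn => ?_
    have h2 := side_low (Q := Q) (b := b) hC0 h ha hA hn hm (hC' n hn m hm)
    have hP : (QW a k b (fun _ => (1 : Matrix κ κ ℝ)) n m)ᵀ =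
        QW a k b (fun _ => 1) n m := QW_symm (fun _ => transpose_one) n m
    have hP' : (QW a k b' (fun _ => (1 : Matrix κ κ ℝ)) n m)ᵀ =
        QW a k b' (fun _ => 1) n m := QW_symm (fun _ => transpose_one) n m
    have h3 := P075.trace_sq_nonneg (B := QW a k b' (fun _ => 1) n m -
      QW a k b (fun _ => 1) n m) (by rw [transpose_sub, hP, hP'])
    rw [Matrix.sub_mul, Matrix.mul_sub, Matrix.mul_sub, trace_sub, trace_sub, trace_sub,
      trace_mul_comm (QW a k b' (fun _ => 1) n m) (QW a k b (fun _ => 1) n m)] at h3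
    linarith
  refine (mul_le_mul_of_nonneg_left h1 hp.le).trans (le_of_eq ?_)
  field_simp

/-- **Change of the plane functional**, middle scale `k`, outer scale `k + r` = scale of the
squares. -/
theorem MR_low [DecidableEq κ] [DecidableEq κ'] {C C' : ℝ} {c c' : ℤ → ℤ → κ' → ℝ} {k : ℕ}
    {Q' : ℤ → ℤ → Prop} (hC0 : 0 ≤ C) (hC0' : 0 ≤ C') (h : k + r ≤ N) (d : ℤ)
    (hA : AgrQ N R S (k + r) Q b' b) (hA' : AgrQ N T S (k + r) Q' c' c)
    (hC : ∀ n ∈ iv (N - (k + r)) R, ∀ m ∈ iv (N - k) S, Cp C (k + r) k b n m)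
    (hC' : ∀ n ∈ iv (N - (k + r)) T, ∀ m ∈ iv (N - k) S, Cp C' (k + r) k c' n m) :
    H652.MR N R S T k r d (QK b' (fun _ _ _ => 1) k (k + r)) (QK c' (fun _ _ _ => 1) k (k + r)) ≤
      H652.MR N R S T k r d (QK b (fun _ _ _ => 1) k (k + r)) (QK c (fun _ _ _ => 1) k (k + r)) +
      (C' * mk N R S (k + r) Q b' b + C * mk N T S (k + r) Q' c' c) := by
  unfold H652.MR
  simp only [QK_one]
  have hp : (0 : ℝ) < 2 ^ (k + r) * 2 ^ k := by positivity
  set X : ℤ → ℤ → ℝ := fun n m => ∑ x ∈ iv (k + r) n, lM k r Q b' b x m with hX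
  set X' : ℤ → ℤ → ℝ := fun n m => ∑ x ∈ iv (k + r) n, lM k r Q' c' c x m with hX'
  have X0 : ∀ n m, 0 ≤ X n m := fun n m => sum_nonneg fun x _ => lM_nonneg ..
  have X0' : ∀ n m, 0 ≤ X' n m := fun n m => sum_nonneg fun x _ => lM_nonneg ..
  set q : ℝ := ((2 : ℝ) ^ (k + r) * 2 ^ k)⁻¹ with hq
  have hq0 : 0 < q := by positivity
  have s1 : ∑ m ∈ iv (N - k) S, ∑ n ∈ iv (N - (k + r)) R, X n m = mk N R S (k + r) Q b' b := by
    rw [← sum_lM h]
    exact sum_congr rfl fun m _ => H804.iv_sum h R fun x => lM k r Q b' b x m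
  have s2 : ∑ m ∈ iv (N - k) S, ∑ n ∈ iv (N - (k + r)) T, X' n m = mk N T S (k + r) Q' c' c := by
    rw [← sum_lM h]
    exact sum_congr rfl fun m _ => H804.iv_sum h T fun x => lM k r Q' c' c x m
  have h1 : ∑ m ∈ iv (N - k) S, ∑ n ∈ iv (N - (k + r)) R,
      (if d - m / 2 ^ r - n ∈ iv (N - (k + r)) T then (QW (k + r) k b' (fun _ => 1) n m *
        QW (k + r) k c' (fun _ => 1) (d - m / 2 ^ r - n) m).trace else 0) ≤
      ∑ m ∈ iv (N - k) S, ∑ n ∈ iv (N - (k + r)) R,
        (if d - m / 2 ^ r - n ∈ iv (N - (k + r)) T then (QW (k + r) k b (fun _ => 1) n m *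
          QW (k + r) k c (fun _ => 1) (d - m / 2 ^ r - n) m).trace else 0) +
      (C' * q * ∑ m ∈ iv (N - k) S, ∑ n ∈ iv (N - (k + r)) R, X n m +
        C * q * ∑ m ∈ iv (N - k) S, ∑ n ∈ iv (N - (k + r)) T, X' n m) := by
    rw [mul_sum, mul_sum, ← sum_add_distrib, ← sum_add_distrib]
    refine sum_le_sum fun m hm => ?_
    have key := H588.sum_refl_le (N - (k + r)) R T (d - m / 2 ^ r) (fun n => X' n m)
      fun n => X0' n m
    have key2 := mul_le_mul_of_nonneg_left key (show 0 ≤ C * q by positivity)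
    have h2 : ∑ n ∈ iv (N - (k + r)) R,
        (if d - m / 2 ^ r - n ∈ iv (N - (k + r)) T then (QW (k + r) k b' (fun _ => 1) n m *
          QW (k + r) k c' (fun _ => 1) (d - m / 2 ^ r - n) m).trace else 0) ≤
        ∑ n ∈ iv (N - (k + r)) R,
          (if d - m / 2 ^ r - n ∈ iv (N - (k + r)) T then (QW (k + r) k b (fun _ => 1) n m *
            QW (k + r) k c (fun _ => 1) (d - m / 2 ^ r - n) m).trace else 0) +
        (C' * q * ∑ n ∈ iv (N - (k + r)) R, X n m +
          C * q * ∑ n ∈ iv (N - (k + r)) R,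
            (if d - m / 2 ^ r - n ∈ iv (N - (k + r)) T then X' (d - m / 2 ^ r - n) m else 0)) := by
      rw [mul_sum, mul_sum, ← sum_add_distrib, ← sum_add_distrib]
      refine sum_le_sum fun n hn => ?_
      by_cases ht : d - m / 2 ^ r - n ∈ iv (N - (k + r)) T
      · rw [if_pos ht, if_pos ht, if_pos ht]
        have s1 := side_low (Q := Q) (b' := b') (b := b) hC0' h h hA hn hm (hC' _ ht m hm)
        have s2 := side_low (Q := Q') (b' := c') (b := c) hC0 h h hA' ht hm (hC n hn m hm)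
        have c1 := trace_mul_comm (QW (k + r) k b (fun _ => 1) n m)
          (QW (k + r) k c' (fun _ => 1) (d - m / 2 ^ r - n) m)
        have c2 := trace_mul_comm (QW (k + r) k b (fun _ => 1) n m)
          (QW (k + r) k c (fun _ => 1) (d - m / 2 ^ r - n) m)
        rw [← hq] at s1 s2
        have t1 : C' * (q * ∑ x ∈ iv (k + r) n, lM k r Q b' b x m) = C' * q * X n m := by
          rw [hX]; ring
        have t2 : C * (q * ∑ x ∈ iv (k + r) (d - m / 2 ^ r - n), lM k r Q' c' c x m) =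
            C * q * X' (d - m / 2 ^ r - n) m := by
          rw [hX']; ring
        linarith
      · rw [if_neg ht, if_neg ht, if_neg ht, mul_zero, add_zero, zero_add]
        exact mul_nonneg (by positivity) (X0 n m)
    linarith
  rw [s1, s2] at h1
  refine (mul_le_mul_of_nonneg_left h1 hp.le).trans (le_of_eq ?_)
  rw [hq]
  field_simp

/-- caps pass to smaller middle cells, with the quotient of the lengths -/
theorem Cp_dn {C : ℝ} {a k : ℕ} {c : ℤ → ℤ → κ → ℝ} {n M m : ℤ} (hm : m ∈ iv r M)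
    (h : Cp C a (k + r) c n M) : Cp (2 ^ r * C) a k c n m := by
  intro f
  have hsub : ∀ y ∈ iv k m, y ∈ iv (k + r) M := by
    intro y hy
    rw [mem_iv] at hy hm ⊢
    rw [← hm, ← hy, ix_ix]
  have hS : ∀ F : ℤ → ℝ, ∑ y ∈ iv (k + r) M, (if y ∈ iv k m then F y else 0) =
      ∑ y ∈ iv k m, F y := by
    intro F
    rw [← sum_filter]
    refine sum_congr ?_ fun _ _ => rfl
    ext y
    rw [mem_filter]
    exact ⟨fun h => h.2, fun h => ⟨hsub y h, h⟩⟩
  have h1 := h fun y => if y ∈ iv k m then f y else 0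
  have e1 : Qf a (k + r) c n M (fun y => if y ∈ iv k m then f y else 0) = Qf a k c n m f := by
    unfold Qf
    refine sum_congr rfl fun x _ => sum_congr rfl fun i _ => ?_
    congr 1
    rw [← hS fun y => f y * c x y i]
    refine sum_congr rfl fun y _ => ?_
    show (if y ∈ iv k m then f y else 0) * c x y i = if y ∈ iv k m then f y * c x y i else 0
    split_ifs
    · rfl
    · rw [zero_mul]
  have e2 : ∑ y ∈ iv (k + r) M, (if y ∈ iv k m then f y else 0) ^ 2 = ∑ y ∈ iv k m, f y ^ 2 := by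
    rw [← hS fun y => f y ^ 2]
    refine sum_congr rfl fun y _ => ?_
    show (if y ∈ iv k m then f y else 0) ^ 2 = if y ∈ iv k m then f y ^ 2 else 0
    split_ifs
    · rfl
    · rw [zero_pow two_ne_zero]
  rw [e1, e2] at h1
  refine h1.trans (le_of_eq ?_)
  rw [pow_add]
  ring


end

end Vale.Agent.P141.H706
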