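import Vale.Agent.P141.H103.MidK
import Vale.Agent.P141.PL.H804.Star

/-!
# P141, line (A): the change of the own energies when squares of a smaller scale are killed

`b'` before the kill, `b` after: `b x y = 0` if the square `(ix K x, ix K y)` of scale `K` is
killed, `b x y = b' x y` otherwise.  `w x y = b' x y . M x b' x y` weighted mass.
The own energy at middle scale `l` and outer scale `a`, `K ≤ l ≤ a`, changes by at most
`4 c e 2^((l-K)/2)` times the killed measure.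
-/

namespace Vale.Agent.P141.H706

open Finset Matrix Vale.Agent.P141.PL
open Vale.Agent.P075 (Ix val)
open Vale.Agent.P141.H103 (QW EW MW PA QK)

noncomputable section

variable {κ : Type*} [Fintype κ]

theorem pt_mem (k : ℕ) (m : ℤ) (i : Ix k) : (2 ^ k * m + val k i : ℤ) ∈ iv k m := by
  rw [iv, mem_Ico]
  have h1 := P075.val_lt k i
  constructor
  · linarith [Int.natCast_nonneg (val k i)]
  · have : ((val k i : ℕ) : ℤ) < 2 ^ k := by exact_mod_cast h1
    linarith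

/-- rows as a matrix over the middle cell -/
def rM (k : ℕ) (f : ℤ → κ → ℝ) (m : ℤ) : Matrix (Ix k) κ ℝ := Matrix.of fun j i => f (2 ^ k * m + val k j) i

omit [Fintype κ] in
theorem rM_sub (k : ℕ) (f g : ℤ → κ → ℝ) (m : ℤ) :
    rM k (fun y => f y - g y) m = rM k f m - rM k g m := by
  ext j i
  simp [rM]

omit [Fintype κ] in
theorem rM_add (k : ℕ) (f g : ℤ → κ → ℝ) (m : ℤ) :
    rM k (fun y => f y + g y) m = rM k f m + rM k g m := by
  ext j i
  simp [rM]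

theorem rM_apply (k : ℕ) (f g : ℤ → κ → ℝ) (M : Matrix κ κ ℝ) (m : ℤ) (j j' : Ix k) :
    (rM k f m * M * (rM k g m)ᵀ) j j'
      = f (2 ^ k * m + val k j) ⬝ᵥ M *ᵥ g (2 ^ k * m + val k j') := by
  rw [dotProduct_mulVec]
  simp [Matrix.mul_apply, vecMul, dotProduct, rM]

/-- trace of the weighted Gram matrix of one row -/
theorem tr_rM (k : ℕ) (f : ℤ → κ → ℝ) (M : Matrix κ κ ℝ) (m : ℤ) :
    (rM k f m * M * (rM k f m)ᵀ).trace = ∑ y ∈ iv k m, f y ⬝ᵥ M *ᵥ f y := by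
  rw [H588.sum_iv, Matrix.trace]
  refine Finset.sum_congr rfl fun j _ => ?_
  rw [Matrix.diag_apply, rM_apply]

theorem QW_rM {a k : ℕ} (b : ℤ → ℤ → κ → ℝ) (M : ℤ → Matrix κ κ ℝ) (n m : ℤ) :
    QW a k b M n m = ((2 : ℝ) ^ a * 2 ^ k)⁻¹ • ∑ x ∈ iv a n,
      (rM k (b x) m * M x * (rM k (b x) m)ᵀ) := by
  ext j j'
  rw [QW, Matrix.smul_apply, Matrix.sum_apply, smul_eq_mul]
  congr 1
  exact Finset.sum_congr rfl fun x _ => (rM_apply ..).symm

theorem rM_psd (k : ℕ) (f : ℤ → κ → ℝ) {M : Matrix κ κ ℝ} (hM : M.PosSemidef) (m : ℤ) :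
    (rM k f m * M * (rM k f m)ᵀ).PosSemidef := by
  have h := hM.mul_mul_conjTranspose_same (rM k f m)
  rwa [Matrix.conjTranspose_eq_transpose_of_trivial] at h

/-- weighted form of one row is at most the cap times the mass -/
theorem form_le {k : ℕ} {P : Matrix (Ix k) (Ix k) ℝ} {c : ℝ}
    (hc : (c • (1 : Matrix (Ix k) (Ix k) ℝ) - P).PosSemidef) (f : ℤ → κ → ℝ) {M : Matrix κ κ ℝ}
    (hM : M.PosSemidef) (m : ℤ) :
    (P * (rM k f m * M * (rM k f m)ᵀ)).trace ≤ c * ∑ y ∈ iv k m, f y ⬝ᵥ M *ᵥ f y := by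
  have h := H420.trace_mul_nonneg hc (rM_psd k f hM m)
  rw [Matrix.sub_mul, Matrix.trace_sub, Matrix.smul_mul, Matrix.one_mul, Matrix.trace_smul,
    smul_eq_mul, tr_rM] at h
  linarith

theorem form_cross {k : ℕ} {P : Matrix (Ix k) (Ix k) ℝ} (hP : P.PosSemidef) (f g : ℤ → κ → ℝ)
    {M : Matrix κ κ ℝ} (hM : M.PosSemidef) (m : ℤ) {r : ℝ} (hr : 0 < r) :
    2 * (P * (rM k f m * M * (rM k g m)ᵀ)).trace
      ≤ r * (P * (rM k f m * M * (rM k f m)ᵀ)).trace
        + r⁻¹ * (P * (rM k g m * M * (rM k g m)ᵀ)).trace := by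
  have hPt : Pᵀ = P := H420.tr_symm hP.isHermitian
  have hMt : Mᵀ = M := H420.tr_symm hM.isHermitian
  set F := rM k f m
  set G := rM k g m
  have hX : ((r • F - G) * M * (r • F - G)ᵀ).PosSemidef := by
    have h := hM.mul_mul_conjTranspose_same (r • F - G)
    rwa [Matrix.conjTranspose_eq_transpose_of_trivial] at h
  have h := H420.trace_mul_nonneg hP hX
  have h1 : (P * (G * M * Fᵀ)).trace = (P * (F * M * Gᵀ)).trace := by
    rw [← Matrix.trace_transpose (P * (G * M * Fᵀ))]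
    rw [Matrix.transpose_mul, Matrix.transpose_mul, Matrix.transpose_mul, Matrix.transpose_transpose,
      hPt, hMt, Matrix.trace_mul_comm, Matrix.mul_assoc F M Gᵀ]
  have h2 : (P * ((r • F - G) * M * (r • F - G)ᵀ)).trace
      = r * r * (P * (F * M * Fᵀ)).trace - 2 * r * (P * (F * M * Gᵀ)).trace
        + (P * (G * M * Gᵀ)).trace := by
    rw [Matrix.transpose_sub, Matrix.transpose_smul]
    simp only [Matrix.sub_mul, Matrix.mul_sub, Matrix.smul_mul, Matrix.mul_smul, Matrix.trace_sub,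
      Matrix.trace_smul, smul_eq_mul]
    rw [h1]
    ring
  rw [h2] at h
  have h3 := mul_nonneg (inv_nonneg.2 hr.le) h
  have h4 : r⁻¹ * (r * r * (P * (F * M * Fᵀ)).trace - 2 * r * (P * (F * M * Gᵀ)).trace
        + (P * (G * M * Gᵀ)).trace)
      = r * (P * (F * M * Fᵀ)).trace - 2 * (P * (F * M * Gᵀ)).trace
        + r⁻¹ * (P * (G * M * Gᵀ)).trace := by
    field_simp
  rw [h4] at h3
  linarith

/-- the kill: `b` is `b'` off the killed squares of scale `K` -/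
def Kil (K : ℕ) (q : ℤ → ℤ → Prop) [∀ n m, Decidable (q n m)] (b' b : ℤ → ℤ → κ → ℝ) : Prop :=
  ∀ x y, b x y = if q (ix K x) (ix K y) then 0 else b' x y

variable {K l a N : ℕ} {q : ℤ → ℤ → Prop} [∀ n m, Decidable (q n m)] {b' b : ℤ → ℤ → κ → ℝ}

/-- **one row** -/
theorem row_change {P : Matrix (Ix l) (Ix l) ℝ} (hP : P.PosSemidef) {c : ℝ} (hc0 : 0 ≤ c)
    (hc : (c • (1 : Matrix (Ix l) (Ix l) ℝ) - P).PosSemidef) (hk : Kil K q b' b) (hKl : K ≤ l)
    {M : Matrix κ κ ℝ} (hM : M.PosSemidef) (x m : ℤ) {e : ℝ} (he0 : 0 ≤ e)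
    (he : ∑ y ∈ iv l m, b' x y ⬝ᵥ M *ᵥ b' x y ≤ e * 2 ^ l)
    (heK : ∀ m' ∈ iv (l - K) m, q (ix K x) m' →
      ∑ y ∈ iv K m', b' x y ⬝ᵥ M *ᵥ b' x y ≤ e * 2 ^ K)
    {s : ℝ} (hs : 0 < s) (hs2 : s * s = 2 ^ (l - K)) :
    2 * ((P * (rM l (b' x) m * M * (rM l (b' x) m)ᵀ)).trace
        - (P * (rM l (b x) m * M * (rM l (b x) m)ᵀ)).trace)
      ≤ ∑ m' ∈ iv (l - K) m, if q (ix K x) m' then 4 * c * e * s * 2 ^ K else 0 := by
  have hnn : ∀ v : κ → ℝ, 0 ≤ v ⬝ᵥ M *ᵥ v := fun v => H420.quad_nonneg hM v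
  have hpos : ∀ m' : ℤ, 0 ≤ (if q (ix K x) m' then 4 * c * e * s * 2 ^ K else 0) := by
    intro m'
    split_ifs
    · positivity
    · exact le_rfl
  by_cases hx : ∃ m' ∈ iv (l - K) m, q (ix K x) m'
  swap
  · -- no kill
    have hb : rM l (b x) m = rM l (b' x) m := by
      ext j i
      simp only [rM, Matrix.of_apply]
      rw [hk x _, if_neg]
      intro h
      refine hx ⟨ix K (2 ^ l * m + val l j), ?_, h⟩
      rw [mem_iv, ix_ix, Nat.add_sub_cancel' hKl]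
      exact mem_iv.1 (pt_mem l m j)
    rw [hb, sub_self, mul_zero]
    exact Finset.sum_nonneg fun m' _ => hpos m'
  · set D : ℤ → κ → ℝ := fun y => b' x y - b x y with hD
    set V : ℤ → κ → ℝ := fun y => b' x y + b x y with hV
    have hPt : Pᵀ = P := H420.tr_symm hP.isHermitian
    have hMt : Mᵀ = M := H420.tr_symm hM.isHermitian
    have h1 : (P * (rM l (b' x) m * M * (rM l (b' x) m)ᵀ)).trace
        - (P * (rM l (b x) m * M * (rM l (b x) m)ᵀ)).trace
        = (P * (rM l D m * M * (rM l V m)ᵀ)).trace := by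
      rw [hD, hV, rM_sub, rM_add]
      have h0 : (P * (rM l (b x) m * M * (rM l (b' x) m)ᵀ)).trace
          = (P * (rM l (b' x) m * M * (rM l (b x) m)ᵀ)).trace := by
        rw [← Matrix.trace_transpose (P * (rM l (b x) m * M * (rM l (b' x) m)ᵀ))]
        rw [Matrix.transpose_mul, Matrix.transpose_mul, Matrix.transpose_mul,
          Matrix.transpose_transpose, hPt, hMt, Matrix.trace_mul_comm,
          Matrix.mul_assoc (rM l (b' x) m) M]
      rw [Matrix.transpose_add]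
      simp only [Matrix.sub_mul, Matrix.mul_add, Matrix.mul_sub, Matrix.trace_add,
        Matrix.trace_sub]
      rw [h0]
      ring
    have h2 := form_cross hP D V hM m (r := 2 * s) (by positivity)
    have h3 := form_le hc D hM m
    have h4 := form_le hc V hM m
    -- masses
    have hDm : ∑ y ∈ iv l m, D y ⬝ᵥ M *ᵥ D y
        ≤ ∑ m' ∈ iv (l - K) m, if q (ix K x) m' then e * 2 ^ K else 0 := by
      rw [← H804.iv_sum hKl m (fun y => D y ⬝ᵥ M *ᵥ D y)]
      refine Finset.sum_le_sum fun m' hm' => ?_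
      by_cases hq : q (ix K x) m'
      · rw [if_pos hq]
        refine le_trans (le_of_eq ?_) (heK m' hm' hq)
        refine Finset.sum_congr rfl fun y hy => ?_
        have : b x y = 0 := by
          rw [hk x y, if_pos]
          rwa [mem_iv.1 hy]
        rw [hD]
        simp only [this, sub_zero]
      · rw [if_neg hq]
        refine le_of_eq (Finset.sum_eq_zero fun y hy => ?_)
        have : b x y = b' x y := by
          rw [hk x y, if_neg]
          rwa [mem_iv.1 hy]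
        rw [hD]
        simp only [this, sub_self, mulVec_zero, dotProduct_zero]
    have hVm : ∑ y ∈ iv l m, V y ⬝ᵥ M *ᵥ V y ≤ 4 * (e * 2 ^ l) := by
      refine le_trans ?_ (mul_le_mul_of_nonneg_left he (by norm_num))
      rw [Finset.mul_sum]
      refine Finset.sum_le_sum fun y _ => ?_
      rw [hV]
      simp only
      rw [hk x y]
      split_ifs
      · rw [add_zero]
        linarith [hnn (b' x y)]
      · simp only [mulVec_add, dotProduct_add, add_dotProduct]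
        linarith
    obtain ⟨m0, hm0, hq0⟩ := hx
    have hone : (1 : ℝ) ≤ ∑ m' ∈ iv (l - K) m, if q (ix K x) m' then (1 : ℝ) else 0 := by
      have h := Finset.single_le_sum (f := fun m' => if q (ix K x) m' then (1 : ℝ) else 0)
        (fun i _ => by split_ifs <;> norm_num) hm0
      simp only [if_pos hq0] at h
      exact h
    set S1 := ∑ m' ∈ iv (l - K) m, if q (ix K x) m' then (1 : ℝ) else 0 with hS1
    have e1 : (∑ m' ∈ iv (l - K) m, if q (ix K x) m' then e * 2 ^ K else 0) = e * 2 ^ K * S1 := by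
      rw [hS1, Finset.mul_sum]
      refine Finset.sum_congr rfl fun m' _ => ?_
      split_ifs <;> simp
    have e2 : (∑ m' ∈ iv (l - K) m, if q (ix K x) m' then 4 * c * e * s * 2 ^ K else 0)
        = 4 * c * e * s * 2 ^ K * S1 := by
      rw [hS1, Finset.mul_sum]
      refine Finset.sum_congr rfl fun m' _ => ?_
      split_ifs <;> simp
    rw [e1] at hDm
    rw [e2, h1]
    refine h2.trans ?_
    have h5 : 2 * s * (P * (rM l D m * M * (rM l D m)ᵀ)).trace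
        ≤ 2 * s * (c * (e * 2 ^ K * S1)) :=
      mul_le_mul_of_nonneg_left (h3.trans (mul_le_mul_of_nonneg_left hDm hc0)) (by positivity)
    have h6 : (2 * s)⁻¹ * (P * (rM l V m * M * (rM l V m)ᵀ)).trace
        ≤ (2 * s)⁻¹ * (c * (4 * (e * 2 ^ l))) :=
      mul_le_mul_of_nonneg_left (h4.trans (mul_le_mul_of_nonneg_left hVm hc0)) (by positivity)
    have e3 : (2 : ℝ) ^ l = s * s * 2 ^ K := by
      rw [hs2, ← pow_add, Nat.sub_add_cancel hKl]
    have h7 : (2 * s)⁻¹ * (c * (4 * (e * 2 ^ l))) = 2 * (c * e * s * 2 ^ K) := by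
      rw [e3]
      field_simp
      ring
    have h8 : c * e * s * 2 ^ K * 1 ≤ c * e * s * 2 ^ K * S1 :=
      mul_le_mul_of_nonneg_left hone (by positivity)
    rw [h7] at h6
    nlinarith [h5, h6, h8]

/-- **one node**: any partner `P` with a cap -/
theorem node_change {P : Matrix (Ix l) (Ix l) ℝ} (hP : P.PosSemidef) {c : ℝ} (hc0 : 0 ≤ c)
    (hc : (c • (1 : Matrix (Ix l) (Ix l) ℝ) - P).PosSemidef) (hk : Kil K q b' b) (hKl : K ≤ l)
    {M : ℤ → Matrix κ κ ℝ} (hM : ∀ x, (M x).PosSemidef) (n m : ℤ) {e : ℝ} (he0 : 0 ≤ e)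
    (he : ∀ x ∈ iv a n, ∑ y ∈ iv l m, b' x y ⬝ᵥ M x *ᵥ b' x y ≤ e * 2 ^ l)
    (heK : ∀ x ∈ iv a n, ∀ m' ∈ iv (l - K) m, q (ix K x) m' →
      ∑ y ∈ iv K m', b' x y ⬝ᵥ M x *ᵥ b' x y ≤ e * 2 ^ K) :
    2 * ((P * QW a l b' M n m).trace - (P * QW a l b M n m).trace)
      ≤ ((2 : ℝ) ^ a * 2 ^ l)⁻¹ * ∑ x ∈ iv a n, ∑ m' ∈ iv (l - K) m,
        if q (ix K x) m' then 4 * c * e * √(2 ^ (l - K)) * 2 ^ K else 0 := by
  rw [QW_rM, QW_rM, Matrix.mul_smul, Matrix.mul_smul, Matrix.trace_smul, Matrix.trace_smul,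
    Matrix.mul_sum, Matrix.mul_sum, Matrix.trace_sum, Matrix.trace_sum, smul_eq_mul, smul_eq_mul,
    ← mul_sub, ← Finset.sum_sub_distrib, mul_left_comm, Finset.mul_sum]
  refine mul_le_mul_of_nonneg_left (Finset.sum_le_sum fun x hx => ?_) (by positivity)
  exact row_change hP hc0 hc hk hKl (hM x) x m he0 (he x hx) (heK x hx)
    (Real.sqrt_pos.2 (by positivity)) (Real.mul_self_sqrt (by positivity))

/-- measure of the killed squares of scale `K` -/
def kms (N : ℕ) (R S : ℤ) (K : ℕ) (q : ℤ → ℤ → Prop) [∀ n m, Decidable (q n m)] : ℝ :=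
  4 ^ K * ∑ m ∈ iv (N - K) S, ∑ n ∈ iv (N - K) R, if q n m then 1 else 0

theorem kms_nonneg (N : ℕ) (R S : ℤ) (K : ℕ) : 0 ≤ kms N R S K q :=
  mul_nonneg (by positivity) (Finset.sum_nonneg fun m _ => Finset.sum_nonneg fun n _ => by
    split_ifs <;> norm_num)

/-- sums over all rows and middle cells -/
theorem sum_kms {R S : ℤ} (hKl : K ≤ l) (hl : l ≤ N) (ha : a ≤ N) (t : ℝ) :
    ∑ m ∈ iv (N - l) S, ∑ n ∈ iv (N - a) R, ∑ x ∈ iv a n, ∑ m' ∈ iv (l - K) m,
        (if q (ix K x) m' then t * 2 ^ K else 0)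
      = t * kms N R S K q := by
  have hK : K ≤ N := hKl.trans hl
  have h1 : ∀ m, ∑ n ∈ iv (N - a) R, ∑ x ∈ iv a n, ∑ m' ∈ iv (l - K) m,
        (if q (ix K x) m' then t * 2 ^ K else 0)
      = ∑ m' ∈ iv (l - K) m, ∑ x ∈ iv N R, if q (ix K x) m' then t * 2 ^ K else 0 := by
    intro m
    rw [H804.iv_sum ha R (fun x => ∑ m' ∈ iv (l - K) m,
      (if q (ix K x) m' then t * 2 ^ K else 0)), Finset.sum_comm]
  rw [Finset.sum_congr rfl fun m _ => h1 m]
  have e : N - l = (N - K) - (l - K) := by omega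
  have h2 := H804.iv_sum (N := N - K) (k := l - K) (by omega) S
    (fun m' => ∑ x ∈ iv N R, if q (ix K x) m' then t * 2 ^ K else 0)
  rw [e, h2, kms, Finset.mul_sum, Finset.mul_sum]
  refine Finset.sum_congr rfl fun m' _ => ?_
  rw [← H804.iv_sum hK R, Finset.mul_sum, Finset.mul_sum]
  refine Finset.sum_congr rfl fun n _ => ?_
  have h3 : ∀ x ∈ iv K n, (if q (ix K x) m' then t * (2 : ℝ) ^ K else 0)
      = if q n m' then t * 2 ^ K else 0 := by
    intro x hx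
    rw [mem_iv.1 hx]
  rw [Finset.sum_congr rfl h3, Finset.sum_const, card_iv, nsmul_eq_mul]
  split_ifs
  · rw [show (4 : ℝ) = 2 * 2 by norm_num, mul_pow]
    push_cast
    ring
  · simp

/-- **the own energy at middle scale `l`, outer scale `a`** -/
theorem own_kill {R S : ℤ} {c : ℝ} (hc0 : 0 ≤ c) (hk : Kil K q b' b) (hKl : K ≤ l) (hl : l ≤ N)
    (ha : a ≤ N) {M : ℤ → ℤ → Matrix κ κ ℝ} (hM : ∀ m x, (M m x).PosSemidef)
    (hc : ∀ n ∈ iv (N - a) R, ∀ m ∈ iv (N - l) S,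
      (c • (1 : Matrix (Ix l) (Ix l) ℝ) - QW a l b' (M m) n m).PosSemidef) {e : ℝ} (he0 : 0 ≤ e)
    (he : ∀ x ∈ iv N R, ∀ m ∈ iv (N - l) S,
      ∑ y ∈ iv l m, b' x y ⬝ᵥ M m x *ᵥ b' x y ≤ e * 2 ^ l)
    (heK : ∀ x ∈ iv N R, ∀ m ∈ iv (N - l) S, ∀ m' ∈ iv (l - K) m, q (ix K x) m' →
      ∑ y ∈ iv K m', b' x y ⬝ᵥ M m x *ᵥ b' x y ≤ e * 2 ^ K) :
    EW N R S l (fun a n m => QW a l b' (M m) n m) a
      ≤ EW N R S l (fun a n m => QW a l b (M m) n m) a
        + 4 * c * e * √(2 ^ (l - K)) * kms N R S K q := by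
  unfold EW
  rw [← sum_kms (q := q) (R := R) (S := S) hKl hl ha]
  have hmem : ∀ {n x : ℤ}, n ∈ iv (N - a) R → x ∈ iv a n → x ∈ iv N R := by
    intro n x hn hx
    rw [mem_iv] at *
    rw [← hn, ← hx, ix_ix, Nat.add_sub_cancel' ha]
  have hpos : (0 : ℝ) < 2 ^ a * 2 ^ l := by positivity
  have e1 : ∀ X : ℤ → ℤ → ℝ, ∑ m ∈ iv (N - l) S, ∑ n ∈ iv (N - a) R, X n m
      = 2 ^ a * 2 ^ l * ∑ m ∈ iv (N - l) S, ∑ n ∈ iv (N - a) R,
        ((2 : ℝ) ^ a * 2 ^ l)⁻¹ * X n m := by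
    intro X
    simp only [← Finset.mul_sum]
    rw [← mul_assoc, mul_inv_cancel₀ hpos.ne', one_mul]
  rw [e1 (fun n m => ∑ x ∈ iv a n, ∑ m' ∈ iv (l - K) m,
    if q (ix K x) m' then 4 * c * e * √(2 ^ (l - K)) * 2 ^ K else 0), ← mul_add,
    ← Finset.sum_add_distrib]
  refine mul_le_mul_of_nonneg_left (Finset.sum_le_sum fun m hm => ?_) hpos.le
  rw [← Finset.sum_add_distrib]
  refine Finset.sum_le_sum fun n hn => ?_
  have hP' : (QW a l b' (M m) n m).PosSemidef := H103.QW_psd (hM m) n m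
  have hP : (QW a l b (M m) n m).PosSemidef := H103.QW_psd (hM m) n m
  have h1 := node_change hP' hc0 (hc n hn m hm) hk hKl (hM m) n m he0
    (fun x hx => he x (hmem hn hx) m hm) (fun x hx => heK x (hmem hn hx) m hm)
  have h2 : 0 ≤ ((QW a l b' (M m) n m - QW a l b (M m) n m)
      * (QW a l b' (M m) n m - QW a l b (M m) n m)).trace := by
    refine P075.trace_sq_nonneg ?_
    rw [Matrix.transpose_sub, H420.tr_symm hP'.isHermitian, H420.tr_symm hP.isHermitian]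
  have h3 : ((QW a l b' (M m) n m - QW a l b (M m) n m)
      * (QW a l b' (M m) n m - QW a l b (M m) n m)).trace
      = (QW a l b' (M m) n m * QW a l b' (M m) n m).trace
        - 2 * (QW a l b' (M m) n m * QW a l b (M m) n m).trace
        + (QW a l b (M m) n m * QW a l b (M m) n m).trace := by
    rw [Matrix.sub_mul, Matrix.mul_sub, Matrix.mul_sub, Matrix.trace_sub, Matrix.trace_sub,
      Matrix.trace_sub, Matrix.trace_mul_comm (QW a l b (M m) n m) (QW a l b' (M m) n m)]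
    ring
  rw [h3] at h2
  linarith

/-- the same for the family `PA` -/
theorem own_killA {R S : ℤ} {A' A : ℤ → ℤ → ℝ} {c : ℝ} (hc0 : 0 ≤ c)
    (hk : ∀ x y, A x y = if q (ix K x) (ix K y) then 0 else A' x y) (hKl : K ≤ l) (hl : l ≤ N)
    (ha : a ≤ N)
    (hc : ∀ n ∈ iv (N - a) R, ∀ m ∈ iv (N - l) S,
      (c • (1 : Matrix (Ix l) (Ix l) ℝ) - PA A' l a n m).PosSemidef) {e : ℝ} (he0 : 0 ≤ e)
    (he : ∀ x ∈ iv N R, ∀ m ∈ iv (N - l) S, ∑ y ∈ iv l m, A' x y ^ 2 ≤ e * 2 ^ l)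
    (heK : ∀ x ∈ iv N R, ∀ m' ∈ iv (N - K) S, q (ix K x) m' →
      ∑ y ∈ iv K m', A' x y ^ 2 ≤ e * 2 ^ K) :
    EW N R S l (PA A' l) a
      ≤ EW N R S l (PA A l) a + 4 * c * e * √(2 ^ (l - K)) * kms N R S K q := by
  have hPA : ∀ F : ℤ → ℤ → ℝ, PA F l
      = fun a n m => QW a l (H103.un F) (fun _ => (1 : Matrix Unit Unit ℝ)) n m := by
    intro F
    rw [H103.PA_eq]
    funext a n m
    rw [QK]
    simp only [inv_one]
  rw [hPA] at hc ⊢
  rw [hPA A]
  have e2 : ∀ x y : ℤ, H103.un A' x y ⬝ᵥ (1 : Matrix Unit Unit ℝ) *ᵥ H103.un A' x y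
      = A' x y ^ 2 := by
    intro x y
    simp [H103.un, dotProduct, pow_two]
  refine own_kill (M := fun _ _ => (1 : Matrix Unit Unit ℝ)) hc0 ?_ hKl hl ha
    (fun _ _ => Matrix.PosSemidef.one) hc he0 ?_ ?_
  · intro x y
    funext i
    simp only [H103.un]
    rw [hk x y]
    split_ifs <;> rfl
  · intro x hx m hm
    simp only [e2]
    exact he x hx m hm
  · intro x hx m hm m' hm' hq
    simp only [e2]
    refine heK x hx m' ?_ hq
    rw [mem_iv] at *
    rw [show N - K = (l - K) + (N - l) by omega, ← ix_ix, hm', hm]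

/-- the same for the family `QK` of `b` with the weights `K⁻¹` -/
theorem own_killB [DecidableEq κ] {R S : ℤ} {lam : ℝ} {G Kt : ℤ → ℕ → ℤ → Matrix κ κ ℝ}
    (hTr : ∀ x, H420.Tr lam N (G x) (Kt x)) {c : ℝ} (hc0 : 0 ≤ c) (hk : Kil K q b' b)
    (hKl : K ≤ l) (hl : l ≤ N) (ha : a ≤ N)
    (hc : ∀ n ∈ iv (N - a) R, ∀ m ∈ iv (N - l) S,
      (c • (1 : Matrix (Ix l) (Ix l) ℝ) - QK b' Kt l a n m).PosSemidef) {e : ℝ} (he0 : 0 ≤ e)
    (he : ∀ x ∈ iv N R, ∀ m ∈ iv (N - l) S,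
      ∑ y ∈ iv l m, b' x y ⬝ᵥ (Kt x l m)⁻¹ *ᵥ b' x y ≤ e * 2 ^ l)
    (heK : ∀ x ∈ iv N R, ∀ m ∈ iv (N - l) S, ∀ m' ∈ iv (l - K) m, q (ix K x) m' →
      ∑ y ∈ iv K m', b' x y ⬝ᵥ (Kt x l m)⁻¹ *ᵥ b' x y ≤ e * 2 ^ K) :
    EW N R S l (QK b' Kt l) a
      ≤ EW N R S l (QK b Kt l) a + 4 * c * e * √(2 ^ (l - K)) * kms N R S K q :=
  own_kill (M := fun m x => (Kt x l m)⁻¹) hc0 hk hKl hl ha
    (fun m x => ((hTr x).pdK l m).inv.posSemidef) hc he0 he heK

end

end Vale.Agent.P141.H706
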